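import Vale.Agent.P365.T1.Defs

/-!
# P365 T1, insulated site lemma, step (6), lower half: the `v`-average at a separated point.

`u = V - s`, `G(v) = (u A + B) / ((v - i e - h) u - τ²)`.  If `|u| ≥ K (Im s + |τ|²)`, then the
average of `|G|²` over `v` is at least `ky |A + B / u|² / (e + 2 η + K⁻²)`, `|h| ≤ η`.
-/

set_option linter.all false

namespace P365T1.Isl3

open Complex MeasureTheory
open scoped ComplexConjugate ENNReal

section scalar

variable {h τ s : ℂ}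

theorem u_sq (t : ℝ) : ‖(t : ℂ) - s‖ ^ 2 = (t - s.re) ^ 2 + s.im ^ 2 := by
  rw [← Complex.normSq_eq_norm_sq, Complex.normSq_apply]
  simp only [Complex.sub_re, Complex.sub_im, Complex.ofReal_re, Complex.ofReal_im]
  ring

/-- the cross term -/
theorem cross (hh : 0 ≤ h.im) (hs : 0 ≤ s.im) (hτ : τ.im ^ 2 ≤ h.im * s.im) (x : ℝ) :
    |2 * τ.re * τ.im * x| ≤ τ.re ^ 2 * s.im + h.im * x ^ 2 := by
  rcases hs.eq_or_lt with h0 | h0
  · have h1 : τ.im = 0 := by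
      have : τ.im ^ 2 ≤ 0 := by rwa [← h0, mul_zero] at hτ
      exact pow_eq_zero_iff two_ne_zero |>.1 (le_antisymm this (sq_nonneg _))
    rw [h1, mul_zero, zero_mul, abs_zero]
    positivity
  · have h2 : τ.im ^ 2 * x ^ 2 ≤ h.im * s.im * x ^ 2 :=
      mul_le_mul_of_nonneg_right hτ (sq_nonneg _)
    have h3 : 0 ≤ (τ.re * s.im - τ.im * x) ^ 2 := sq_nonneg _
    have h3' : 0 ≤ (τ.re * s.im + τ.im * x) ^ 2 := sq_nonneg _
    rw [abs_le]
    constructor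
    · have h4 : s.im * -(τ.re ^ 2 * s.im + h.im * x ^ 2) ≤ s.im * (2 * τ.re * τ.im * x) := by
        nlinarith
      exact le_of_mul_le_mul_left h4 h0
    · have h4 : s.im * (2 * τ.re * τ.im * x) ≤ s.im * (τ.re ^ 2 * s.im + h.im * x ^ 2) := by
        nlinarith
      exact le_of_mul_le_mul_left h4 h0

theorem im_eq (t : ℝ) : (τ ^ 2 / ((t : ℂ) - s)).im =
    (2 * τ.re * τ.im * (t - s.re) + (τ.re ^ 2 - τ.im ^ 2) * s.im) / ‖(t : ℂ) - s‖ ^ 2 := by
  rw [Complex.div_im, Complex.normSq_eq_norm_sq]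
  simp only [Complex.sub_re, Complex.sub_im, Complex.ofReal_re, Complex.ofReal_im]
  have : (τ ^ 2).im = 2 * τ.re * τ.im := by rw [pow_two, Complex.mul_im]; ring
  rw [this]
  have : (τ ^ 2).re = τ.re ^ 2 - τ.im ^ 2 := by rw [pow_two, Complex.mul_re]; ring
  rw [this]
  ring

theorem tau_sq : ‖τ‖ ^ 2 = τ.re ^ 2 + τ.im ^ 2 := by
  rw [← Complex.normSq_eq_norm_sq, Complex.normSq_apply]; ring

/-- the moved self-energy: upper bound of the imaginary part -/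
theorem im_le (hh : 0 ≤ h.im) (hs : 0 ≤ s.im) (hτ : τ.im ^ 2 ≤ h.im * s.im) {t : ℝ}
    (hu : 0 < ‖(t : ℂ) - s‖) :
    (τ ^ 2 / ((t : ℂ) - s)).im ≤ h.im + 2 * ‖τ‖ ^ 2 * s.im / ‖(t : ℂ) - s‖ ^ 2 := by
  have hu2 : 0 < ‖(t : ℂ) - s‖ ^ 2 := by positivity
  rw [im_eq, div_le_iff₀ hu2, add_mul, div_mul_cancel₀ _ hu2.ne', u_sq, tau_sq]
  have h1 := (abs_le.1 (cross hh hs hτ (t - s.re))).2
  have h5 : 0 ≤ h.im * s.im ^ 2 := mul_nonneg hh (sq_nonneg _)
  have h6 : 0 ≤ τ.im ^ 2 * s.im := by positivity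
  nlinarith

/-- the moved self-energy: lower bound of the imaginary part -/
theorem im_ge (hh : 0 ≤ h.im) (hs : 0 ≤ s.im) (hτ : τ.im ^ 2 ≤ h.im * s.im) {t : ℝ}
    (hu : 0 < ‖(t : ℂ) - s‖) : 0 ≤ (h + τ ^ 2 / ((t : ℂ) - s)).im := by
  have hu2 : 0 < ‖(t : ℂ) - s‖ ^ 2 := by positivity
  have h1 := (abs_le.1 (cross hh hs hτ (t - s.re))).1
  have h2 : -h.im ≤ (τ ^ 2 / ((t : ℂ) - s)).im := by
    rw [im_eq, le_div_iff₀ hu2, u_sq]
    have h3 : τ.im ^ 2 * s.im ≤ h.im * s.im * s.im := mul_le_mul_of_nonneg_right hτ hs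
    nlinarith
  rw [Complex.add_im]
  linarith

/-- the `v` integral of a function bounded below on an interval -/
theorem vint {ν : Measure ℝ} {κ a : ℝ} (hν : DensGe κ a ν) (hκ : 0 ≤ κ) {c q X : ℝ}
    (hc : |c| + q ≤ a) (hq : 0 < q) (hX : 0 ≤ X) {f : ℝ → ℝ}
    (hf : ∀ v, |v - c| ≤ q → X / (2 * q ^ 2) ≤ f v) :
    ENNReal.ofReal (κ / q * X) ≤ ∫⁻ v, ENNReal.ofReal (f v) ∂ν := by
  have hc' := abs_le.1 (le_refl |c|)
  have hsub : Set.Icc (c - q) (c + q) ⊆ Set.Icc (-a) a :=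
    Set.Icc_subset_Icc (by linarith [hc'.1]) (by linarith [hc'.2])
  have h1 : ENNReal.ofReal κ * ENNReal.ofReal (2 * q) ≤ ν (Set.Icc (c - q) (c + q)) := by
    have h2 := hν (Set.Icc (c - q) (c + q))
    rw [Measure.smul_apply, Measure.restrict_apply measurableSet_Icc,
      Set.inter_eq_left.2 hsub, Real.volume_Icc, smul_eq_mul] at h2
    have e : c + q - (c - q) = 2 * q := by ring
    rwa [e] at h2
  calc ENNReal.ofReal (κ / q * X)
      = ENNReal.ofReal (X / (2 * q ^ 2)) * (ENNReal.ofReal κ * ENNReal.ofReal (2 * q)) := by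
        rw [← ENNReal.ofReal_mul hκ, ← ENNReal.ofReal_mul (by positivity)]
        congr 1
        field_simp
    _ ≤ ENNReal.ofReal (X / (2 * q ^ 2)) * ν (Set.Icc (c - q) (c + q)) := by gcongr
    _ = ∫⁻ v in Set.Icc (c - q) (c + q), ENNReal.ofReal (X / (2 * q ^ 2)) ∂ν := by
        rw [setLIntegral_const]
    _ ≤ ∫⁻ v in Set.Icc (c - q) (c + q), ENNReal.ofReal (f v) ∂ν := by
        refine setLIntegral_mono' measurableSet_Icc fun v hv => ENNReal.ofReal_le_ofReal (hf v ?_)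
        exact abs_le.2 ⟨by linarith [hv.1], by linarith [hv.2]⟩
    _ ≤ _ := setLIntegral_le_lintegral _ _

end scalar

variable {F : Type*} [NormedAddCommGroup F] [NormedSpace ℂ F]

/-- **(6), lower half, pointwise in `V`** -/
theorem low_pt {A B : F} {h s τ : ℂ} (hh : 0 ≤ h.im) (hs : 0 ≤ s.im)
    (hτ : τ.im ^ 2 ≤ h.im * s.im) {V K η e a ky : ℝ} (hu : 0 < ‖(V : ℂ) - s‖) (hK : 1 ≤ K)
    (hsep : K * (s.im + ‖τ‖ ^ 2) ≤ ‖(V : ℂ) - s‖) (hη : ‖h‖ ≤ η)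
    (ha : η + 1 / K + (e + 2 * η + 1 / K ^ 2) ≤ a) (he : 0 < e) (hky : 0 ≤ ky)
    {νy : Measure ℝ} (hν : DensGe ky a νy) :
    ENNReal.ofReal (ky / (e + 2 * η + 1 / K ^ 2) * ‖A + ((V : ℂ) - s)⁻¹ • B‖ ^ 2) ≤
      ∫⁻ v, ENNReal.ofReal (‖(((v : ℂ) - e * I - h) * ((V : ℂ) - s) - τ ^ 2)⁻¹ •
        (((V : ℂ) - s) • A + B)‖ ^ 2) ∂νy := by
  set u : ℂ := (V : ℂ) - s with hudef
  have hK0 : 0 < K := by linarith
  have hu0 : u ≠ 0 := norm_pos_iff.1 hu
  have hη0 : 0 ≤ η := (norm_nonneg _).trans hη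
  set g : ℂ := h + τ ^ 2 / u with hg
  have hq : 0 < e + 2 * η + 1 / K ^ 2 := by positivity
  -- imaginary part of `g`
  have hg1 : 0 ≤ g.im := im_ge hh hs hτ hu
  have hg2 : g.im ≤ 2 * η + 1 / K ^ 2 := by
    have h1 := im_le hh hs hτ hu
    have h2 : h.im ≤ η := (Complex.abs_im_le_norm h |>.trans' (le_abs_self _)).trans hη
    have h3 : 2 * ‖τ‖ ^ 2 * s.im / ‖u‖ ^ 2 ≤ 1 / K ^ 2 := by
      rw [div_le_div_iff₀ (by positivity) (by positivity), one_mul]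
      have h0 : 0 ≤ K * (s.im + ‖τ‖ ^ 2) := by positivity
      have h4 : (K * (s.im + ‖τ‖ ^ 2)) ^ 2 ≤ ‖u‖ ^ 2 := pow_le_pow_left₀ h0 hsep 2
      nlinarith [mul_nonneg (sq_nonneg K) (sq_nonneg s.im),
        mul_nonneg (sq_nonneg K) (sq_nonneg (‖τ‖ ^ 2))]
    rw [hg, Complex.add_im]
    linarith
  -- real part of `g`
  have hg3 : |g.re| ≤ η + 1 / K := by
    refine (Complex.abs_re_le_norm g).trans ((norm_add_le _ _).trans (add_le_add hη ?_))
    rw [norm_div, norm_pow, div_le_div_iff₀ hu hK0, one_mul]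
    have : 0 ≤ K * s.im := by positivity
    nlinarith
  refine vint hν hky (c := g.re) (by linarith) hq (sq_nonneg _) fun v hv => ?_
  -- the integrand
  have e1 : ((v : ℂ) - e * I - h) * u - τ ^ 2 = ((v : ℂ) - e * I - g) * u := by
    rw [hg]
    field_simp
    ring
  have e2 : (((v : ℂ) - e * I - h) * u - τ ^ 2)⁻¹ • (u • A + B) =
      ((v : ℂ) - e * I - g)⁻¹ • (A + u⁻¹ • B) := by
    rw [e1, mul_inv, mul_smul, smul_add u⁻¹, smul_smul u⁻¹ u A, inv_mul_cancel₀ hu0, one_smul]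
  have e3 : ‖(v : ℂ) - e * I - g‖ ^ 2 = (v - g.re) ^ 2 + (e + g.im) ^ 2 := by
    rw [← Complex.normSq_eq_norm_sq, Complex.normSq_apply]
    simp only [Complex.sub_re, Complex.sub_im, Complex.ofReal_re, Complex.ofReal_im,
      Complex.mul_re, Complex.mul_im, Complex.I_re, Complex.I_im]
    ring
  rw [e2, norm_smul, norm_inv, mul_pow, inv_pow, e3, div_eq_inv_mul]
  refine mul_le_mul_of_nonneg_right ?_ (sq_nonneg _)
  have h5 : 0 < (v - g.re) ^ 2 + (e + g.im) ^ 2 := by positivity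
  refine inv_anti₀ h5 ?_
  have h6 : (v - g.re) ^ 2 ≤ (e + 2 * η + 1 / K ^ 2) ^ 2 := by
    rw [← sq_abs]
    exact pow_le_pow_left₀ (abs_nonneg _) hv 2
  have h7 : (e + g.im) ^ 2 ≤ (e + 2 * η + 1 / K ^ 2) ^ 2 :=
    pow_le_pow_left₀ (by linarith) (by linarith) 2
  linarith

/-- second moment of an affine function over an interval -/
theorem affine_int (B A : ℂ) (c l : ℝ) (hl : 0 ≤ l) :
    ∫ t in (c - l)..(c + l), ‖B + A * ((t : ℂ) - c)‖ ^ 2 =
      2 * l * ‖B‖ ^ 2 + 2 * l ^ 3 / 3 * ‖A‖ ^ 2 := by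
  have e : ∀ t : ℝ, ‖B + A * ((t : ℂ) - c)‖ ^ 2 =
      ‖B‖ ^ 2 + (2 * (B.re * A.re + B.im * A.im)) * (t - c) + ‖A‖ ^ 2 * (t - c) ^ 2 := by
    intro t
    rw [← Complex.normSq_eq_norm_sq, ← Complex.normSq_eq_norm_sq, ← Complex.normSq_eq_norm_sq,
      Complex.normSq_apply, Complex.normSq_apply, Complex.normSq_apply]
    simp only [Complex.add_re, Complex.add_im, Complex.mul_re, Complex.mul_im, Complex.sub_re,
      Complex.sub_im, Complex.ofReal_re, Complex.ofReal_im]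
    ring
  simp_rw [e]
  have h2 : ∫ t in (c - l)..(c + l), (‖B‖ ^ 2 + (2 * (B.re * A.re + B.im * A.im)) * (t - c) +
      ‖A‖ ^ 2 * (t - c) ^ 2) = ∫ t in (-l)..l, (‖B‖ ^ 2 +
      (2 * (B.re * A.re + B.im * A.im)) * t + ‖A‖ ^ 2 * t ^ 2) := by
    have := intervalIntegral.integral_comp_sub_right (a := c - l) (b := c + l)
      (fun t : ℝ => ‖B‖ ^ 2 + (2 * (B.re * A.re + B.im * A.im)) * t + ‖A‖ ^ 2 * t ^ 2) c
    rw [this]
    congr 1 <;> ring
  rw [h2, intervalIntegral.integral_add, intervalIntegral.integral_add,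
    intervalIntegral.integral_const, intervalIntegral.integral_const_mul,
    intervalIntegral.integral_const_mul, integral_id, integral_pow]
  · simp only [smul_eq_mul]
    push_cast
    ring
  all_goals
    apply Continuous.intervalIntegrable
    fun_prop

end P365T1.Isl3
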