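import Vale.Agent.P365.C937.IslA
import Vale.Agent.P365.T1.OneVarL

/-!
# P365 T1, ISL: instances of `PLaw` (laws at the ports): bumps, `nuS`, uniform windows and their
translations.
-/

set_option linter.all false

namespace P365T1.Isl

open MeasureTheory Set P365T1 P365T1.Bump P365T1.OneVar
open scoped ENNReal

/-- symmetric unimodal densities `ρ v = ψ (L₀ - |v - c|)` with `ψ (t/2) ≥ θ ψ t` -/
structure Shape (ρ : ℝ → ℝ) (c L₀ θ : ℝ) (ψ : ℝ → ℝ) : Prop where
  hL₀ : 0 < L₀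
  hθ : 0 < θ
  eq : ∀ v, ρ v = ψ (L₀ - |v - c|)
  neg : ∀ t, t < 0 → ψ t = 0
  mono : ∀ t₁ t₂, t₁ ≤ t₂ → t₂ ≤ L₀ → ψ t₁ ≤ ψ t₂
  half : ∀ t, 0 ≤ t → t ≤ L₀ → θ * ψ t ≤ ψ (t / 2)

theorem Shape.inward {ρ ψ : ℝ → ℝ} {c L₀ θ : ℝ} (S : Shape ρ c L₀ θ ψ) {v v' η u : ℝ}
    (hv : 0 < ρ v) (hη : 0 < η) (hη' : η ≤ L₀ / 2) (h' : |v' - v| ≤ η)
    (hu : (c ≤ v ∧ v - η ≤ u ∧ u ≤ v - η / 2) ∨ (v ≤ c ∧ v + η / 2 ≤ u ∧ u ≤ v + η)) :
    θ * ρ v' ≤ ρ u := by
  have hL := S.hL₀
  have hθ := S.hθ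
  have ht : 0 ≤ L₀ - |v - c| := by
    by_contra hc
    push Not at hc
    rw [S.eq, S.neg _ hc] at hv
    exact lt_irrefl _ hv
  set T : ℝ := min L₀ (L₀ - |v - c| + η) with hT
  have hT0 : 0 ≤ T := le_min hL.le (by linarith)
  have hTL : T ≤ L₀ := min_le_left _ _
  have hT2 : T ≤ L₀ - |v - c| + η := min_le_right _ _
  have h1 : L₀ - |v' - c| ≤ T := by
    refine le_min (by linarith [abs_nonneg (v' - c)]) ?_
    have h2 : |v - c| ≤ |v' - c| + |v' - v| := by
      have := abs_sub (v' - c) (v' - v)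
      have e : v' - c - (v' - v) = v - c := by ring
      rwa [e] at this
    linarith
  have h2 : T / 2 ≤ L₀ - |u - c| := by
    rcases hu with ⟨hc, hu1, hu2⟩ | ⟨hc, hu1, hu2⟩
    · have e : |v - c| = v - c := abs_of_nonneg (by linarith)
      rcases le_total c u with h | h
      · rw [abs_of_nonneg (by linarith : 0 ≤ u - c)]
        rw [e] at hT2 ht
        linarith
      · rw [abs_of_nonpos (by linarith : u - c ≤ 0)]
        linarith
    · have e : |v - c| = -(v - c) := abs_of_nonpos (by linarith)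
      rcases le_total u c with h | h
      · rw [abs_of_nonpos (by linarith : u - c ≤ 0)]
        rw [e] at hT2 ht
        linarith
      · rw [abs_of_nonneg (by linarith : 0 ≤ u - c)]
        linarith
  rw [S.eq v', S.eq u]
  calc θ * ψ (L₀ - |v' - c|) ≤ θ * ψ T := by
        exact mul_le_mul_of_nonneg_left (S.mono _ _ h1 hTL) hθ.le
    _ ≤ ψ (T / 2) := S.half T hT0 hTL
    _ ≤ _ := S.mono _ _ h2 (by linarith [abs_nonneg (u - c)])

theorem Shape.sd {ρ ψ : ℝ → ℝ} {c L₀ θ : ℝ} (S : Shape ρ c L₀ θ ψ) (hρ : ∀ v, 0 ≤ ρ v)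
    {v v' η : ℝ} (hv : 0 < ρ v) (hη : 0 < η) (hη' : η ≤ L₀ / 2) (h' : |v' - v| ≤ η) :
    ENNReal.ofReal (θ / 2 * ρ v' * η) ≤
      (volume.withDensity fun v => ENNReal.ofReal (ρ v)) (Icc (v - η) (v + η)) := by
  have hθ := S.hθ
  have h0 : 0 ≤ θ * ρ v' := mul_nonneg hθ.le (hρ v')
  rcases le_total c v with hc | hc
  · have h1 := mass_Icc (ρ := ρ) (a := v - η) (b := v - η / 2) (c₀ := θ * ρ v') h0
      fun u hu => S.inward hv hη hη' h' (Or.inl ⟨hc, hu.1, hu.2⟩)
    have e : θ * ρ v' * (v - η / 2 - (v - η)) = θ / 2 * ρ v' * η := by ring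
    rw [e] at h1
    exact h1.trans (measure_mono (Icc_subset_Icc_right (by linarith)))
  · have h1 := mass_Icc (ρ := ρ) (a := v + η / 2) (b := v + η) (c₀ := θ * ρ v') h0
      fun u hu => S.inward hv hη hη' h' (Or.inr ⟨hc, hu.1, hu.2⟩)
    have e : θ * ρ v' * (v + η - (v + η / 2)) = θ / 2 * ρ v' * η := by ring
    rw [e] at h1
    exact h1.trans (measure_mono (Icc_subset_Icc_left (by linarith)))

theorem Shape.shift {ρ ψ : ℝ → ℝ} {c L₀ θ : ℝ} (S : Shape ρ c L₀ θ ψ) (E : ℝ) :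
    Shape (fun u => ρ (u + E)) (c - E) L₀ θ ψ := by
  refine ⟨S.hL₀, S.hθ, fun v => ?_, S.neg, S.mono, S.half⟩
  have e : v - (c - E) = v + E - c := by ring
  rw [e]
  exact S.eq _

/-- **regular laws with a shape are port laws** -/
theorem plaw_of_shape {ν : Measure ℝ} {ρ ψ : ℝ → ℝ} {L δ m κ₀ R η₀ c L₀ θ : ℝ}
    (G : GLaw ν ρ L δ m κ₀ R η₀) (hL : 0 < L) (S : Shape ρ c L₀ θ ψ) :
    PLaw ν ρ L R (θ / 2) (L₀ / 2) δ m where
  hL := hL
  hR := G.hR
  hκ := half_pos S.hθ
  hη := half_pos S.hL₀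
  hδ := G.hδ
  hm := G.hm
  dens := G.dens
  meas := G.meas
  nonneg := G.nonneg
  le := G.le
  supp := G.supp
  sd := fun v v' η h1 h2 h3 h4 => by
    rw [G.dens]
    exact S.sd G.nonneg h1 h2 h3 h4
  spread := G.spread

/-! ### bumps -/

theorem rhoB_abs (c l v : ℝ) : rhoB c l v = rhoB 0 l |v - c| := by
  unfold rhoB
  rw [sub_zero, div_pow, div_pow, sq_abs]

theorem shape_rhoB {c l : ℝ} (hl : 0 < l) :
    Shape (rhoB c l) c l (1 / 4) (fun t => rhoB 0 l (l - t)) := by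
  refine ⟨hl, by norm_num, fun v => ?_, fun t ht => ?_, fun t₁ t₂ h12 h2 => ?_,
    fun t ht0 ht1 => ?_⟩
  · rw [rhoB_abs]
    congr 1
    ring
  · refine rhoB_eq_zero hl fun h => ?_
    linarith [h.2]
  · show rhoB 0 l (l - t₁) ≤ rhoB 0 l (l - t₂)
    by_cases h : t₁ < 0
    · rw [rhoB_eq_zero (v := l - t₁) hl fun h3 => by linarith [h3.2]]
      exact rhoB_nonneg hl
    · push Not at h
      refine rhoB_mono hl ?_ ?_
      · rw [abs_le]
        constructor <;> linarith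
      · rw [abs_of_nonneg (by linarith), abs_of_nonneg (by linarith)]
        linarith
  · show 1 / 4 * rhoB 0 l (l - t) ≤ rhoB 0 l (l - t / 2)
    rw [rhoB_eq hl (by rw [abs_le]; constructor <;> linarith),
      rhoB_eq hl (by rw [abs_le]; constructor <;> linarith)]
    set x : ℝ := t / l with hx
    have hx0 : 0 ≤ x := by positivity
    have hx1 : x ≤ 1 := by rw [hx, div_le_one hl]; exact ht1
    have e1 : (l - t - 0) / l = 1 - x := by rw [hx]; field_simp; ring
    have e2 : (l - t / 2 - 0) / l = 1 - x / 2 := by rw [hx]; field_simp; ring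
    rw [e1, e2]
    have h1 : 0 ≤ x * (2 - x) / 2 := by
      have : 0 ≤ x * (2 - x) := mul_nonneg hx0 (by linarith)
      linarith
    have h2 : x * (2 - x) / 2 ≤ 1 - (1 - x / 2) ^ 2 := by nlinarith
    have h3 := pow_le_pow_left₀ h1 h2 2
    calc 1 / 4 * (15 / (16 * l) * (1 - (1 - x) ^ 2) ^ 2)
        = 15 / (16 * l) * (x * (2 - x) / 2) ^ 2 := by ring
      _ ≤ _ := by gcongr

theorem plaw_nuB {c l L : ℝ} (hl : 0 < l) (hL : |c| + l ≤ L) :
    PLaw (nuB c l) (rhoB c l) L (15 / (16 * l)) (1 / 8) (l / 2) (l / 2) (1 / 12) := by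
  have h := plaw_of_shape (glaw_nuB hl hL) (by linarith [abs_nonneg c]) (shape_rhoB (c := c) hl)
  norm_num at h ⊢
  exact h

/-! ### uniform windows -/

theorem shape_unif {c w : ℝ} (hw : 0 < w) :
    Shape ((Icc (c - w) (c + w)).indicator (fun _ => (2 * w)⁻¹)) c w 1
      (fun t => if t < 0 then 0 else (2 * w)⁻¹) := by
  have hw2 : (0 : ℝ) ≤ (2 * w)⁻¹ := by positivity
  refine ⟨hw, one_pos, fun v => ?_, fun t ht => by simp [ht], fun t₁ t₂ h12 h2 => ?_,
    fun t ht0 ht1 => ?_⟩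
  · by_cases hv : v ∈ Icc (c - w) (c + w)
    · rw [indicator_of_mem hv]
      have : |v - c| ≤ w := abs_le.2 ⟨by linarith [hv.1], by linarith [hv.2]⟩
      rw [if_neg (by linarith)]
    · rw [indicator_of_notMem hv]
      have : w < |v - c| := by
        by_contra h
        push Not at h
        have h' := abs_le.1 h
        exact hv ⟨by linarith [h'.1], by linarith [h'.2]⟩
      rw [if_pos (by linarith)]
  · show (if t₁ < 0 then (0 : ℝ) else (2 * w)⁻¹) ≤ if t₂ < 0 then 0 else (2 * w)⁻¹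
    by_cases h1 : t₁ < 0
    · rw [if_pos h1]
      split_ifs
      · exact le_rfl
      · exact hw2
    · rw [if_neg h1, if_neg (by linarith)]
  · show 1 * (if t < 0 then (0 : ℝ) else (2 * w)⁻¹) ≤ if t / 2 < 0 then 0 else (2 * w)⁻¹
    rw [if_neg (by linarith), if_neg (by linarith), one_mul]

theorem plaw_unif {c w L : ℝ} (hw : 0 < w) (hL : |c| + w ≤ L) :
    PLaw (volume.withDensity fun v => ENNReal.ofReal
        ((Icc (c - w) (c + w)).indicator (fun _ => (2 * w)⁻¹) v))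
      ((Icc (c - w) (c + w)).indicator (fun _ => (2 * w)⁻¹)) L ((2 * w)⁻¹) (1 / 2) (w / 2) w
      (1 / 4) :=
  plaw_of_shape (glaw_unif hw hL) (by linarith [abs_nonneg c]) (shape_unif (c := c) hw)

/-! ### the smooth law -/

/-- primitive of the bump seen from its left end -/
noncomputable def PhiS (l t : ℝ) : ℝ := ∫ z in Ioc 0 t, rhoB l l z

theorem integrableOn_rhoB (l : ℝ) (a b : ℝ) : IntegrableOn (rhoB l l) (Ioc a b) :=
  ((continuous_rhoB l l).integrableOn_Icc (a := a) (b := b)).mono_set Ioc_subset_Icc_self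

theorem PhiS_mono {l : ℝ} (hl : 0 < l) {t₁ t₂ : ℝ} (h : t₁ ≤ t₂) : PhiS l t₁ ≤ PhiS l t₂ := by
  unfold PhiS
  exact setIntegral_mono_set (integrableOn_rhoB l 0 t₂)
    (Filter.Eventually.of_forall fun z => rhoB_nonneg hl)
    (Ioc_subset_Ioc_right h).eventuallyLE

theorem PhiS_neg {l t : ℝ} (h : t ≤ 0) : PhiS l t = 0 := by
  unfold PhiS
  rw [Ioc_eq_empty (by simpa using h)]
  simp

/-- left of its left end the bump vanishes -/
theorem rhoB_left {l z : ℝ} (hl : 0 < l) (hz : z ≤ 0) : rhoB l l z = 0 :=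
  rhoB_eq_zero hl fun h => by linarith [h.1]

theorem rhoB_scale {l z : ℝ} (hl : 0 < l) (hz : 0 ≤ z) :
    1 / 4 * rhoB l l z ≤ rhoB l l (z / 2) := by
  rcases le_total z (2 * l) with h | h
  · rw [rhoB_eq hl (by rw [abs_le]; constructor <;> linarith),
      rhoB_eq hl (by rw [abs_le]; constructor <;> linarith)]
    set x : ℝ := z / l with hx
    have hx0 : 0 ≤ x := by positivity
    have hx1 : x ≤ 2 := by rw [hx, div_le_iff₀ hl]; exact h
    have e1 : (z - l) / l = x - 1 := by rw [hx]; field_simp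
    have e2 : (z / 2 - l) / l = x / 2 - 1 := by rw [hx]; field_simp
    rw [e1, e2]
    have h1 : 0 ≤ x * (2 - x) / 2 := by
      have : 0 ≤ x * (2 - x) := mul_nonneg hx0 (by linarith)
      linarith
    have h2 : x * (2 - x) / 2 ≤ 1 - (x / 2 - 1) ^ 2 := by nlinarith
    have h3 := pow_le_pow_left₀ h1 h2 2
    calc 1 / 4 * (15 / (16 * l) * (1 - (x - 1) ^ 2) ^ 2)
        = 15 / (16 * l) * (x * (2 - x) / 2) ^ 2 := by ring
      _ ≤ _ := by gcongr
  · rcases h.eq_or_lt with h0 | h0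
    · have : rhoB l l z = 0 := by
        rw [rhoB_eq hl (by rw [abs_le]; constructor <;> linarith), ← h0]
        field_simp
        ring
      rw [this, mul_zero]
      exact rhoB_nonneg hl
    · rw [rhoB_eq_zero (v := z) hl fun h3 => by linarith [h3.2], mul_zero]
      exact rhoB_nonneg hl

theorem PhiS_half {l t : ℝ} (hl : 0 < l) (ht : 0 ≤ t) : 1 / 8 * PhiS l t ≤ PhiS l (t / 2) := by
  unfold PhiS
  rw [← intervalIntegral.integral_of_le ht, ← intervalIntegral.integral_of_le (by linarith)]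
  have h1 := intervalIntegral.integral_comp_div (a := 0) (b := t) (rhoB l l) (two_ne_zero' ℝ)
  rw [zero_div] at h1
  have h2 : ∫ z in (0 : ℝ)..(t / 2), rhoB l l z = 1 / 2 * ∫ z in (0 : ℝ)..t, rhoB l l (z / 2) := by
    rw [h1, smul_eq_mul]
    ring
  rw [h2]
  have h3 : 1 / 4 * ∫ z in (0 : ℝ)..t, rhoB l l z ≤ ∫ z in (0 : ℝ)..t, rhoB l l (z / 2) := by
    rw [← intervalIntegral.integral_const_mul]
    refine intervalIntegral.integral_mono_on ht ?_ ?_ fun z hz => rhoB_scale hl hz.1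
    · exact ((continuous_rhoB l l).const_mul _ |>.intervalIntegrable _ _)
    · exact (((continuous_rhoB l l).comp (continuous_id.div_const 2)).intervalIntegrable _ _)
  linarith

theorem rhoS_eq_pos {lam l v : ℝ} (hl : 0 < l) (h : 2 * l ≤ lam) (hv : 0 ≤ v) (hv' : v ≤ lam) :
    ∫ c, rhoB c l v ∂(muc lam l) = PhiS l (lam - v) := by
  rw [muc, integral_Icc_eq_integral_Ioc, ← intervalIntegral.integral_of_le (by linarith)]
  have e1 : ∀ c : ℝ, rhoB c l v = rhoB l l (c + (l - v)) := fun c => by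
    unfold rhoB
    have : c + (l - v) - l = -(v - c) := by ring
    rw [this, neg_div, neg_sq]
  simp only [e1]
  rw [intervalIntegral.integral_comp_add_right (rhoB l l) (l - v)]
  have e2 : lam - l + (l - v) = lam - v := by ring
  have hi : ∀ a b : ℝ, IntervalIntegrable (rhoB l l) volume a b := fun a b =>
    (continuous_rhoB l l).intervalIntegrable a b
  rw [e2, ← intervalIntegral.integral_add_adjacent_intervals (hi _ 0) (hi 0 _)]
  have e3 : ∫ z in (-(lam - l) + (l - v))..(0 : ℝ), rhoB l l z = 0 := by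
    rw [intervalIntegral.integral_congr (g := fun _ => (0 : ℝ))]
    · simp
    · intro z hz
      rw [uIcc_of_le (by linarith)] at hz
      exact rhoB_left hl hz.2
  rw [e3, zero_add, PhiS, intervalIntegral.integral_of_le (by linarith)]

theorem rhoS_int_symm {lam l v : ℝ} (h : l ≤ lam) :
    ∫ c, rhoB c l v ∂(muc lam l) = ∫ c, rhoB c l (-v) ∂(muc lam l) := by
  have hle : -(lam - l) ≤ lam - l := by linarith
  rw [muc, integral_Icc_eq_integral_Ioc, integral_Icc_eq_integral_Ioc,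
    ← intervalIntegral.integral_of_le hle, ← intervalIntegral.integral_of_le hle]
  have h1 := intervalIntegral.integral_comp_neg (a := -(lam - l)) (b := lam - l)
    (fun c => rhoB c l v)
  rw [neg_neg] at h1
  rw [← h1]
  refine intervalIntegral.integral_congr fun c _ => ?_
  show rhoB (-c) l v = rhoB c l (-v)
  unfold rhoB
  have : v - -c = -(-v - c) := by ring
  rw [this, neg_div, neg_sq]

theorem shape_rhoS {lam l : ℝ} (hl : 0 < l) (h : 2 * l ≤ lam) :
    Shape (rhoS lam l) 0 lam (1 / 8) (fun t => (2 * (lam - l))⁻¹ * PhiS l t) := by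
  have hK : (0 : ℝ) ≤ (2 * (lam - l))⁻¹ := inv_nonneg.2 (by linarith)
  have h' : l < lam := by linarith
  refine ⟨by linarith, by norm_num, fun v => ?_, fun t ht => ?_, fun t₁ t₂ h12 h2 => ?_,
    fun t ht0 ht1 => ?_⟩
  · rw [sub_zero]
    by_cases hv : lam < |v|
    · rw [rhoS_supp hl h' hv, PhiS_neg (by linarith), mul_zero]
    · push Not at hv
      rw [rhoS]
      congr 1
      rcases le_total 0 v with h0 | h0
      · rw [abs_of_nonneg h0] at hv ⊢
        exact rhoS_eq_pos hl h h0 hv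
      · rw [abs_of_nonpos h0] at hv ⊢
        rw [rhoS_int_symm (by linarith)]
        exact rhoS_eq_pos hl h (by linarith) hv
  · show (2 * (lam - l))⁻¹ * PhiS l t = 0
    rw [PhiS_neg ht.le, mul_zero]
  · exact mul_le_mul_of_nonneg_left (PhiS_mono hl h12) hK
  · show 1 / 8 * ((2 * (lam - l))⁻¹ * PhiS l t) ≤ (2 * (lam - l))⁻¹ * PhiS l (t / 2)
    have := mul_le_mul_of_nonneg_left (PhiS_half hl ht0) hK
    linarith

theorem plaw_nuS {lam l : ℝ} (hl : 0 < l) (h : 2 * l ≤ lam) :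
    PLaw (nuS lam l) (rhoS lam l) lam ((2 * (lam - l))⁻¹) (1 / 16) (lam / 2) (l / 2) (1 / 24) := by
  have h1 := plaw_of_shape (glaw_nuS hl (by linarith)) (by linarith) (shape_rhoS hl h)
  norm_num at h1 ⊢
  exact h1

/-! ### translations -/

theorem plaw_nuB_shift {c l L : ℝ} (hl : 0 < l) (hL : |c| + l ≤ L) (E : ℝ) :
    PLaw ((nuB c l).map fun v => v - E) (fun u => rhoB c l (u + E)) (L + |E|) (15 / (16 * l))
      (1 / 8) (l / 2) (l / 2) (1 / 12) := by
  have h := plaw_of_shape ((glaw_nuB hl hL).shift E)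
    (by linarith [abs_nonneg c, abs_nonneg E]) ((shape_rhoB (c := c) hl).shift E)
  norm_num at h ⊢
  exact h

theorem plaw_unif_shift {c w L : ℝ} (hw : 0 < w) (hL : |c| + w ≤ L) (E : ℝ) :
    PLaw ((volume.withDensity fun v => ENNReal.ofReal
        ((Icc (c - w) (c + w)).indicator (fun _ => (2 * w)⁻¹) v)).map fun v => v - E)
      (fun u => (Icc (c - w) (c + w)).indicator (fun _ => (2 * w)⁻¹) (u + E)) (L + |E|)
      ((2 * w)⁻¹) (1 / 2) (w / 2) w (1 / 4) :=
  plaw_of_shape ((glaw_unif hw hL).shift E) (by linarith [abs_nonneg c, abs_nonneg E])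
    ((shape_unif (c := c) hw).shift E)

theorem plaw_nuS_shift {lam l : ℝ} (hl : 0 < l) (h : 2 * l ≤ lam) (E : ℝ) :
    PLaw ((nuS lam l).map fun v => v - E) (fun u => rhoS lam l (u + E)) (lam + |E|)
      ((2 * (lam - l))⁻¹) (1 / 16) (lam / 2) (l / 2) (1 / 24) := by
  have h1 := plaw_of_shape ((glaw_nuS hl (by linarith)).shift E)
    (by linarith [abs_nonneg E]) ((shape_rhoS hl h).shift E)
  norm_num at h1 ⊢
  exact h1

end P365T1.Isl
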