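import Vale.Agent.P365.ISL.H3.PLaws
import Vale.Agent.P365.ISL.Transport963

/-!
# P365 T1, ISL: the one-sided property `Side` for bumps, `nuS`, uniform windows, translations.
-/

set_option linter.all false

namespace P365T1.Isl

open MeasureTheory Set P365T1 P365T1.Bump P365T1.OneVar P365T1.ISL963

theorem Shape.side {ρ ψ : ℝ → ℝ} {c L₀ θ : ℝ} (S : Shape ρ c L₀ θ ψ) (hθ1 : θ ≤ 1)
    (hρ : ∀ v, 0 ≤ ρ v) : Side ρ θ (L₀ / 2) := by
  have hL := S.hL₀
  have hθ := S.hθ
  -- comparison
  have key : ∀ v u : ℝ, (|u - c| ≤ |v - c| ∨ |u - c| ≤ L₀ / 2) → θ * ρ v ≤ ρ u := by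
    intro v u h
    by_cases ht : L₀ - |v - c| < 0
    · rw [S.eq v, S.neg _ ht, mul_zero]
      exact hρ u
    · push Not at ht
      rcases h with h | h
      · have h1 : ρ v ≤ ρ u := by
          rw [S.eq v, S.eq u]
          exact S.mono _ _ (by linarith) (by linarith [abs_nonneg (u - c)])
        have h2 := mul_le_mul_of_nonneg_right hθ1 (hρ v)
        linarith
      · rw [S.eq v, S.eq u]
        exact (S.half _ ht (by linarith [abs_nonneg (v - c)])).trans
          (S.mono _ _ (by linarith [abs_nonneg (v - c)]) (by linarith [abs_nonneg (u - c)]))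
  intro v
  rcases le_total c v with hc | hc
  · refine ⟨-1, Or.inr rfl, fun t ht0 ht1 => key _ _ ?_⟩
    have e : |v - c| = v - c := abs_of_nonneg (by linarith)
    rcases le_total c (v + -1 * t) with h | h
    · left
      rw [e, abs_of_nonneg (by linarith)]
      linarith
    · right
      rw [abs_of_nonpos (by linarith)]
      linarith
  · refine ⟨1, Or.inl rfl, fun t ht0 ht1 => key _ _ ?_⟩
    have e : |v - c| = -(v - c) := abs_of_nonpos (by linarith)
    rcases le_total (v + 1 * t) c with h | h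
    · left
      rw [e, abs_of_nonpos (by linarith)]
      linarith
    · right
      rw [abs_of_nonneg (by linarith)]
      linarith

theorem side_nuB {c l : ℝ} (hl : 0 < l) : Side (rhoB c l) (1 / 4) (l / 2) :=
  (shape_rhoB hl).side (by norm_num) fun v => rhoB_nonneg hl

theorem side_unif {c w : ℝ} (hw : 0 < w) :
    Side ((Icc (c - w) (c + w)).indicator (fun _ => (2 * w)⁻¹)) 1 (w / 2) :=
  (shape_unif hw).side le_rfl fun v => Set.indicator_nonneg (fun _ _ => by positivity) v

theorem side_nuS {lam l : ℝ} (hl : 0 < l) (h : 2 * l ≤ lam) :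
    Side (rhoS lam l) (1 / 8) (lam / 2) :=
  (shape_rhoS hl h).side (by norm_num) (rhoS_nonneg hl (by linarith))

theorem side_nuB_shift {c l : ℝ} (hl : 0 < l) (E : ℝ) :
    Side (fun u => rhoB c l (u + E)) (1 / 4) (l / 2) :=
  ((shape_rhoB hl).shift E).side (by norm_num) fun v => rhoB_nonneg hl

theorem side_unif_shift {c w : ℝ} (hw : 0 < w) (E : ℝ) :
    Side (fun u => (Icc (c - w) (c + w)).indicator (fun _ => (2 * w)⁻¹) (u + E)) 1 (w / 2) :=
  ((shape_unif hw).shift E).side le_rfl fun v => Set.indicator_nonneg (fun _ _ => by positivity) _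

theorem side_nuS_shift {lam l : ℝ} (hl : 0 < l) (h : 2 * l ≤ lam) (E : ℝ) :
    Side (fun u => rhoS lam l (u + E)) (1 / 8) (lam / 2) :=
  ((shape_rhoS hl h).shift E).side (by norm_num) fun v => rhoS_nonneg hl (by linarith) _

end P365T1.Isl
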